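import Vale.Agent.P241CL.St
import Mathlib.CategoryTheory.Action.Basic
import Mathlib.CategoryTheory.Preadditive.Basic
import Mathlib.Algebra.BigOperators.Finprod
import Mathlib.CategoryTheory.ObjectProperty.FullSubcategory
import Mathlib.CategoryTheory.Limits.Shapes.Products

/-!
# Genuine `G`-spectra

Orthogonal `G`-spectra are orthogonal spectra with an action of the finite group `G`. Their
equivariant homotopy groups are `π_k^H X = colim_a [S^{k + a ρ}, X (a ρ)]^H` with `ρ` the regular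
representation of `G`; here `S^{k + a ρ} = S^{k + a} ∧ S^{a ρ'}`, where `ρ'` is the reduced regular
representation. The genuine `G`-spectra are the localization at the `π_*^H`-isomorphisms.
The geometric fixed points are `(Φ^H X)_n = X (n ρ_H)^H`.
-/

open CategoryTheory OnePoint Matrix Limits

noncomputable section

namespace Vale.Agent.P241GX

open P251.St P251CX

variable {G : Type} [Group G] [Finite G]

/-- The coordinates of a vector of `a ρ`. -/
def cd {a} (s : Fin a → G → ℝ) (i : Fin (Nat.card G * a)) : ℝ :=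
  s i.modNat ((Finite.equivFin G).symm i.divNat)

/-- The action of `G` on `a ρ`. -/
def tw {a} (g : G) (s : Fin a → G → ℝ) (i : Fin a) (k : G) : ℝ := s i (g⁻¹ * k)

/-- `h` is the action of `g` on `a ρ`. -/
def IsAct {a} (g : G) (h : Emb (Nat.card G * a) (Nat.card G * a)) : Prop :=
  ∀ s, ap h (cd s) = cd (tw g s)

/-- The vectors of `ℝ^j ⊕ a ρ'`. -/
abbrev Red (G : Type) (j a : ℕ) : Set ((Fin j → ℝ) × (Fin a → G → ℝ)) :=
  {x | ∀ i, ∑ᶠ k, x.2 i k = 0}

omit [Group G] in
theorem lc_red (j a : ℕ) : LocallyCompactSpace (Red G j a) := by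
  have := Fintype.ofFinite G
  refine IsClosed.locallyCompactSpace ?_
  simp only [finsum_eq_sum_of_fintype, Set.ofPred_forall]
  exact isClosed_iInter fun i => isClosed_eq (by fun_prop) continuous_const

/-- The space `ℝ^j ⊕ a ρ'`. -/
def Dm (G : Type) [Finite G] (j a : ℕ) : Space :=
  haveI : LocallyCompactSpace (Red G j a) := id (lc_red j a)
  ⟨Red G j a⟩

variable (H : Subgroup G) (X : Action OSp G)

/-- `u : S^j ∧ S^{a ρ'} → X (b ρ)` is `H`-equivariant. -/
def Eqv {j a b} (u : Pm (Dm G j a) X.V (Nat.card G * b)) : Prop :=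
  ∀ g ∈ H, ∀ h, IsAct g h → ∀ x y : Red G j a, y.1 = (x.1.1, tw g x.1.2) →
    u.fn (.some y) = X.V.ac h ((X.ρ g).app _ (u.fn (.some x)))

/-- `H`-equivariant based maps `S^j ∧ S^{a ρ'} → X (a ρ)`. -/
inductive Elt
  | of {j a} (u : Pm (Dm G j a) X.V (Nat.card G * a)) (hu : Eqv H X u)

/-- `v` is the suspension `S^1 ∧ S^{ρ'} ∧ A = S^ρ ∧ A → S^ρ ∧ X (b ρ) → X (ρ ⊕ b ρ)` of `u`. -/
def Stb {j a b} (u : Pm (Dm G j a) X.V (Nat.card G * b))
    (v : Pm (Dm G j.succ a.succ) X.V (Nat.card G * b.succ)) : Prop :=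
  ∀ t w (x : Red G j a) (y : Red G j.succ a.succ), y.1 = (vecCons t x.1.1, vecCons w x.1.2) →
    ∀ h, (∀ s, ap h (cd s) = cd (vecCons (fun k => t + w k) s)) →
      v.fn (.some y) = X.V.ac h (u.fn (.some x))

/-- Equivariant homotopy and suspension by `S^ρ`. The quotient is the disjoint union of the groups
`π_k^H X`, `k = j - a ∈ ℤ`. -/
inductive Rl : Elt H X → Elt H X → Prop
  | htpy {j a} (h : ℝ → Pm (Dm G j a) X.V _) (e : ∀ t, Eqv H X (h t)) :
      Continuous (Function.uncurry fun t => (h t).fn) → Rl (.of _ (e 0)) (.of _ (e 1))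
  | stab {j a} {u : Pm (Dm G j a) X.V _} {v} (e e') : Stb X u v → Rl (.of u e) (.of v e')

/-- The `π_*^H`-isomorphisms for all `H`. -/
def eqW (G : Type) [Group G] [Finite G] : MorphismProperty (Action OSp G) := fun X Y f =>
  ∀ H, ∃ h : Quot (Rl H X) → Quot (Rl H Y), h.Bijective ∧
    ∀ j a (u : Pm (Dm G j a) X.V _) v e e', (∀ x, v.fn x = f.hom.app _ (u.fn x)) →
      h (.mk _ (.of u e)) = .mk _ (.of v e')

/-- The homotopy category of genuine `G`-spectra. -/
abbrev Ho (G : Type) [Group G] [Finite G] : Type 1 := (eqW G).Localization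

/-- `Y` is the spectrum of geometric fixed points, `Y_n = X (n ρ_H)^H`. -/
def IsPhi (Y : OSp) : Prop := ∃ e : ∀ n, Y.sp n → X.V.sp (Nat.card H * n),
  ∀ n, Topology.IsEmbedding (e n) ∧ e n (Y.bp n) = X.V.bp _ ∧
    (∀ x, x ∈ Set.range (e n) ↔ ∀ (g : H) h, IsAct g h → X.V.ac h ((X.ρ g).app _ x) = x) ∧
    ∀ m (f : Emb m n) h, (∀ s, ap h (cd s) = cd fun i k => ap f (fun l => s l k) i) →
      ∀ y, e n (Y.ac f y) = X.V.ac h (e m y)

variable [Preadditive (Ho G)] (p : ℕ)

/-- `p`-local objects: the integers prime to `p` act invertibly. -/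
def IsLoc : ObjectProperty (Ho G) := fun A => ∀ m : ℕ, m.Coprime p → IsIso (m • 𝟙 A)

/-- The category of `p`-local genuine `G`-spectra. -/
abbrev Pl (G : Type) [Group G] [Finite G] [Preadditive (Ho G)] (p : ℕ) : Type 1 :=
  (@IsLoc G _ _ _ p).FullSubcategory

variable {p}

/-- Compact objects: every map to a coproduct factors through a finite partial coproduct. -/
def Cpt (A : Pl G p) : Prop := ∀ (I : Type) (B : I → Pl G p) (c : Cofan B), IsColimit c →
  ∀ f : A ⟶ c.pt, ∃ (s : Finset I) (g : ∀ i, A ⟶ B i), f = ∑ i ∈ s, g i ≫ c.inj i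

open P241L

variable {T : SM} (I : IsSH T) (K : ℕ → Rg T) (p) (n : ℕ)

/-- `K(i)_* (Φ^H A) = 0`. -/
def Acy (A : Pl G p) (i : ℕ) : Prop :=
  ∀ Y, IsPhi H A.obj.as.obj Y → Nul (idt (tn (K i).ob (I.L Y)))

/-- `K(n+r)_* (Φ^H A) = 0` implies `K(n)_* (Φ^G A) = 0` for all finite `p`-local `A`. -/
def Force (r : ℕ) : Prop := ∀ A : Pl G p, Cpt A → Acy H p I K A (n + r) → Acy ⊤ p I K A n

/-- The chromatic fixed point loss `r_n(G, H)`. -/
def loss : ℕ := sInf {r | Force H p I K n r}

end Vale.Agent.P241GX
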